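import Crest.Agent.N233.Lp.Defs
import Crest.Agent.N255.Ch.Loc
import Crest.Agent.N233.Hyp.Mir

-- ▼ part N233/Lp/Q
section

/-!
# Row 233 (helper95): exact link complexes give pseudomanifolds with boundary
-/

set_option autoImplicit false
open Finsupp Relation

noncomputable section

namespace Crest.Agent.N233.Lp

open N255.Ch

variable {S K : Type} [DecidableEq S] [LinearOrder K] {Γ : SimpleGraph S} {col : S → K}
  {U t0 : Finset S} {s : S}

theorem Lk.nmem {L : Set S} (h : Lk Γ L t0 s) : s ∉ t0 := fun m => (h.2 s m).ne rfl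

theorem Lk.clique {L : Set S} (h : Lk Γ L t0 s) (h0 : Γ.IsClique (t0 : Set S)) :
    Γ.IsClique ((insert s t0 : Finset S) : Set S) := by
  rw [Finset.coe_insert]
  exact h0.insert fun b hb _ => (h.2 b hb).symm

theorem lk_of {L : Set S} {t : Finset S} (ht : Γ.IsClique (t : Set S)) (h : t0 ⊆ t) (hs : s ∈ t)
    (hn : s ∉ t0) (hL : s ∈ L) : Lk Γ L t0 s :=
  ⟨hL, fun a ha => ht (h ha) hs fun e => hn (e ▸ ha)⟩

theorem Lk.mono {L L' : Set S} (h : Lk Γ L t0 s) (hL : L ⊆ L') : Lk Γ L' t0 s := ⟨hL h.1, h.2⟩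

theorem exists_lk {L : Set S} {t : Finset S} (ht : Γ.IsClique (t : Set S)) (h : t0 ⊆ t)
    (hc : t0.card < t.card) (hL : ↑t ⊆ L) : ∃ s ∈ t, Lk Γ L t0 s := by
  obtain ⟨s, hs, hn⟩ := Finset.exists_mem_notMem_of_card_lt_card hc
  exact ⟨s, hs, lk_of ht h hs hn (hL hs)⟩

theorem ins_inj {s' : S} (hs : s ∉ t0) (e : insert s t0 = insert s' t0) : s = s' := by
  have : s ∈ insert s' t0 := e ▸ Finset.mem_insert_self s t0
  exact (Finset.mem_insert.1 this).resolve_right hs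

variable (h0 : t0 ∈ Q Γ U ∅)
include h0

theorem Lk.memQ (h : Lk Γ U t0 s) : insert s t0 ∈ Q Γ U t0 :=
  ⟨h.clique h0.1, Finset.subset_insert _ _, Finset.insert_subset h.1 h0.2.2⟩

theorem dq_apex {a : Finset S →₀ ℤ} (ha : a ∈ Sp (Q Γ U t0)) (h : Lk Γ U t0 s) :
    dq Γ col U a (insert s t0) = eps col s t0 * a t0 := by
  rw [dq_apply, if_pos (h.clique h0.1), Finset.sum_eq_single s, Finset.erase_insert h.nmem]
  · intro x hx n
    rw [show a _ = 0 from by_contra fun k => ?_, mul_zero]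
    have := (mem_Sp.1 ha _ k).2.1
      ((Finset.mem_insert.1 (Finset.mem_inter.1 hx).1).resolve_left n)
    simp at this
  · exact fun n => (n (Finset.mem_inter.2 ⟨Finset.mem_insert_self _ _, h.1⟩)).elim

omit h0 in
theorem dq_lk {t : Finset S} (h : dq Γ col U (single t0 1) t ≠ 0) :
    ∃ s, Lk Γ U t0 s ∧ t = insert s t0 := by
  obtain ⟨hc, s, hs, hn, rfl⟩ := dq_ne h
  exact ⟨s, lk_of hc (Finset.subset_insert _ _) (Finset.mem_insert_self _ _) hn hs, rfl⟩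

theorem ex_conn (hcol : ∀ s t, Γ.Adj s t → col s ≠ col t)
    (h : ∀ b ∈ Sp (Q Γ U t0), (∀ t, b t ≠ 0 → t.card = t0.card + 1) → dq Γ col U b = 0 →
      ∃ a ∈ Sp (Q Γ U t0), dq Γ col U a = b) {c c' : S} (hc : Lk Γ U t0 c) (hc' : Lk Γ U t0 c') :
    ReflTransGen (fun u v => Γ.Adj u v ∧ Lk Γ U t0 v) c c' := by
  let D : S → Prop := ReflTransGen (fun u v => Γ.Adj u v ∧ Lk Γ U t0 v) c
  let l : Finset S → Prop := fun t => ∃ s ∈ t, s ∉ t0 ∧ D s
  let V : Set (Finset S) := {t | ∃ s, Lk Γ U t0 s ∧ t = insert s t0}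
  have hb : dq Γ col U (single t0 1) ∈ Sp V := mem_Sp.2 fun t => dq_lk
  have e0 : ∀ a : Finset S →₀ ℤ, a ∈ Sp (∅ : Set (Finset S)) ↔ a = 0 := fun a =>
    ⟨fun h => Finsupp.ext fun t => by_contra fun k => mem_Sp.1 h t k, fun h => h ▸ zero_mem _⟩
  have h1 := rs_label (δ := dq Γ col U) l (U := V) (V := ∅)
    (fun a ha => by rw [(e0 a).1 ha, map_zero]; exact zero_mem _) (by
      rintro _ ⟨s, hs, rfl⟩ - y hy
      obtain ⟨hy, s', h1, h2, rfl⟩ := dq_ne hy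
      have h3 : Lk Γ U t0 s' := lk_of hy ((Finset.subset_insert _ _).trans (Finset.subset_insert _ _))
        (Finset.mem_insert_self _ _) (fun k => h2 (Finset.mem_insert_of_mem k)) h1
      have j : Γ.Adj s' s := hy (by simp) (by simp) fun k => h2 (k ▸ Finset.mem_insert_self _ _)
      refine .inr (propext ⟨?_, fun ⟨x, hx, k⟩ => ⟨x, Finset.mem_insert_of_mem hx, k⟩⟩)
      rintro ⟨x, hx, k⟩
      rcases Finset.mem_insert.1 hx with rfl | hx
      · exact ⟨s, Finset.mem_insert_self _ _, hs.nmem, k.2.tail ⟨j, hs⟩⟩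
      · exact ⟨x, hx, k⟩) hb (by rw [dq_dq hcol]; exact zero_mem _) True
  rw [e0, Set.compl_empty, rs_eq_self (Sp_univ _)] at h1
  have hV := mem_Sp.1 (rs_mem_inter {x | l x = True} hb)
  obtain ⟨a, ha, e⟩ := h _ (mem_Sp.2 fun t k => by
    obtain ⟨⟨s, hs, rfl⟩, -⟩ := hV t k
    exact hs.memQ h0) (fun t k => by
    obtain ⟨⟨s, hs, rfl⟩, -⟩ := hV t k
    exact Finset.card_insert_of_notMem hs.nmem) h1
  have a1 := DFunLike.congr_fun e (insert c t0)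
  rw [dq_apex h0 ha hc, rs_of_mem _ (by
    exact eq_true ⟨c, Finset.mem_insert_self _ _, hc.nmem, .refl⟩),
    dq_insert hc.1 hc.nmem (hc.clique h0.1)] at a1
  by_contra n
  have a2 := DFunLike.congr_fun e (insert c' t0)
  rw [dq_apex h0 ha hc', rs_of_notMem _ (by
    intro k
    obtain ⟨x, hx, k1, k2⟩ := of_eq_true k
    obtain rfl := (Finset.mem_insert.1 hx).resolve_right k1
    exact n k2)] at a2
  rw [(mul_eq_zero.1 a2).resolve_left (eps_ne _ _), mul_zero] at a1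
  exact eps_ne _ _ a1.symm

theorem dq_top (hT : ∀ t ∈ Q Γ U ∅, t.card ≤ t0.card + 1) (h : Lk Γ U t0 s) (k : ℤ) :
    dq Γ col U (single (insert s t0) k) = 0 := by
  have : dq Γ col U (single (insert s t0) 1) = 0 := Finsupp.ext fun t => by_contra fun n => by
    obtain ⟨s', h', rfl⟩ := dq_lk n
    have := hT _ ⟨h'.clique (h.clique h0.1), Finset.empty_subset _,
      Finset.insert_subset h'.1 (h.memQ h0).2.2⟩
    rw [Finset.card_insert_of_notMem h'.nmem, Finset.card_insert_of_notMem h.nmem] at this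
    omega
  rw [dq_single, one_smul] at this
  rw [dq_single, this, smul_zero]

theorem ex_one (hT : ∀ t ∈ Q Γ U ∅, t.card ≤ t0.card + 1) (h : Ex (dq Γ col U) 0 (Sp (Q Γ U t0)))
    {c c' : S} (hc : Lk Γ U t0 c) (hc' : Lk Γ U t0 c') : c' = c := by
  obtain ⟨a, ha, e⟩ := h _ (single_mem (hc.memQ h0) 1) (dq_top h0 hT hc 1) rfl
  by_contra n
  have a1 := DFunLike.congr_fun e (insert c t0)
  have a2 := DFunLike.congr_fun e (insert c' t0)
  rw [dq_apex h0 ha hc, single_eq_same] at a1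
  rw [dq_apex h0 ha hc', single_eq_of_ne fun k => n (ins_inj hc'.nmem k)] at a2
  rw [(mul_eq_zero.1 a2).resolve_left (eps_ne _ _), mul_zero] at a1
  exact zero_ne_one a1

theorem ex_two (hT : ∀ t ∈ Q Γ U ∅, t.card ≤ t0.card + 1) {z : Finset S → ℤ}
    (h : Ex (dq Γ col U) (pe z) (Sp (Q Γ U t0))) (hz : pe z (dq Γ col U (single t0 1)) = 0)
    {c : S} (hc : Lk Γ U t0 c) (zc : z (insert c t0) ≠ 0) :
    ∃ a a', a ≠ a' ∧ ∀ s, Lk Γ U t0 s ↔ s = a ∨ s = a' := by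
  obtain ⟨c', n, hc'⟩ : ∃ c', c ≠ c' ∧ Lk Γ U t0 c' := by
    by_contra k
    push Not at k
    have : dq Γ col U (single t0 1) = single (insert c t0) (eps col c t0) := Finsupp.ext fun t => by
      by_cases e : t = insert c t0
      · rw [e, single_eq_same, dq_insert hc.1 hc.nmem (hc.clique h0.1)]
      · rw [single_eq_of_ne e]
        by_contra m
        obtain ⟨s, hs, rfl⟩ := dq_lk m
        exact k s (fun k => e (by rw [k])) hs
    rw [this, linearCombination_single, smul_eq_mul] at hz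
    exact zc ((mul_eq_zero.1 hz).resolve_left (eps_ne _ _))
  refine ⟨c, c', n, fun s => ⟨fun hs => by_contra fun k => ?_, by rintro (rfl | rfl) <;> assumption⟩⟩
  push Not at k
  obtain ⟨a, ha, e⟩ := h (single (insert c' t0) (z (insert c t0)) -
      single (insert c t0) (z (insert c' t0)))
    (sub_mem (single_mem (hc'.memQ h0) _) (single_mem (hc.memQ h0) _))
    (by rw [map_sub, dq_top h0 hT hc, dq_top h0 hT hc', sub_zero])
    (by simp only [map_sub, linearCombination_single, smul_eq_mul]; ring)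
  have a1 := DFunLike.congr_fun e (insert c' t0)
  have a2 := DFunLike.congr_fun e (insert s t0)
  rw [dq_apex h0 ha hc', Finsupp.sub_apply, single_eq_same,
    single_eq_of_ne fun k => n (ins_inj hc'.nmem k).symm] at a1
  rw [dq_apex h0 ha hs, Finsupp.sub_apply, single_eq_of_ne fun e => k.2 (ins_inj hs.nmem e),
    single_eq_of_ne fun e => k.1 (ins_inj hs.nmem e), sub_zero] at a2
  rw [(mul_eq_zero.1 a2).resolve_left (eps_ne _ _), mul_zero, sub_zero] at a1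
  exact zc a1.symm

omit h0

theorem eq_ins {t : Finset S} (ht : t ∈ Q Γ U t0) (hc : t.card = t0.card + 1) :
    ∃ c, Lk Γ U t0 c ∧ t = insert c t0 := by
  obtain ⟨c, h1, h2⟩ := exists_lk (L := U) ht.1 ht.2.1 (by omega) (Finset.coe_subset.2 ht.2.2)
  refine ⟨c, h2, (Finset.eq_of_subset_of_card_le (Finset.insert_subset h1 ht.2.1) ?_).symm⟩
  rw [Finset.card_insert_of_notMem h2.nmem, hc]

theorem pe_card {z : Finset S → ℤ} {k n : ℕ} (hz : ∀ t, z t ≠ 0 → t.card = k) {b : Finset S →₀ ℤ}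
    (hb : ∀ t, b t ≠ 0 → t.card = n) (h : n ≠ k) : pe z b = 0 := by
  rw [linearCombination_apply, Finsupp.sum]
  refine Finset.sum_eq_zero fun t ht => ?_
  rw [show z t = 0 from by_contra fun m => h ((hb t (mem_support_iff.1 ht)).symm.trans (hz t m)),
    smul_zero]

variable (Γ) in
/-- a chamber with walls: a normal pseudomanifold with boundary -/
structure Chm {ι : Type} (J : Set ι) (C : Finset S) (T : ι → Finset S) : Prop where
  sub : ∀ j ∈ J, T j ⊆ C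
  dis : ∀ j ∈ J, ∀ i ∈ J, ∀ s ∈ T j, s ∈ T i → j = i
  le4 : ∀ τ ∈ Q Γ C ∅, τ.card ≤ 4
  le3 : ∀ j ∈ J, ∀ τ ∈ Q Γ (T j) ∅, τ.card ≤ 3
  ext4 : ∀ τ ∈ Q Γ C ∅, ∃ σ ∈ Q Γ C τ, σ.card = 4
  ext3 : ∀ j ∈ J, ∀ τ ∈ Q Γ (T j) ∅, ∃ σ ∈ Q Γ (T j) τ, σ.card = 3
  two4 : ∀ ρ ∈ Q Γ C ∅, ρ.card = 3 → (∀ j ∈ J, ¬ρ ⊆ T j) →
    ∃ a a', a ≠ a' ∧ ∀ s, Lk Γ C ρ s ↔ s = a ∨ s = a'
  one4 : ∀ j ∈ J, ∀ ρ ∈ Q Γ (T j) ∅, ρ.card = 3 → ∃ a, ∀ s, Lk Γ C ρ s ↔ s = a
  two3 : ∀ j ∈ J, ∀ ρ ∈ Q Γ (T j) ∅, ρ.card = 2 →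
    ∃ a a', a ≠ a' ∧ ∀ s, Lk Γ (T j) ρ s ↔ s = a ∨ s = a'
  lk4 : ∀ τ ∈ Q Γ C ∅, τ.card ≤ 2 → ∀ c c', Lk Γ C τ c → Lk Γ C τ c' →
    ReflTransGen (fun u v => Γ.Adj u v ∧ Lk Γ C τ v) c c'
  lk3 : ∀ j ∈ J, ∀ τ ∈ Q Γ (T j) ∅, τ.card ≤ 1 → ∀ c c', Lk Γ (T j) τ c → Lk Γ (T j) τ c' →
    ReflTransGen (fun u v => Γ.Adj u v ∧ Lk Γ (T j) τ v) c c'

theorem chm_of (hcol : ∀ s t, Γ.Adj s t → col s ≠ col t) {ι : Type} [DecidableEq ι] {J : Set ι}
    {C : Finset S} {T : ι → Finset S} {o : Finset S → ℤ} {m l ω : ι → Finset S → ℤ}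
    (W : Wal Γ col J C T o m l ω) (R : ∀ j ∈ J, Tor Γ col (T j) (m j) (l j) (ω j))
    (sub : ∀ j ∈ J, T j ⊆ C) (dis : ∀ j ∈ J, ∀ i ∈ J, ∀ s ∈ T j, s ∈ T i → j = i)
    (le4 : ∀ τ ∈ Q Γ C ∅, τ.card ≤ 4) (le3 : ∀ j ∈ J, ∀ τ ∈ Q Γ (T j) ∅, τ.card ≤ 3) :
    Chm Γ J C T := by
  have nz : ∀ {x : ℤ}, x = 1 ∨ x = -1 → x ≠ 0 := by rintro _ (rfl | rfl) <;> decide
  have e4 : ∀ τ ∈ Q Γ C ∅, ∃ σ ∈ Q Γ C τ, σ.card = 4 ∧ o σ ≠ 0 := fun τ h =>
    (W.top τ h).imp fun σ k => ⟨k.1, (W.o_sup σ (nz k.2)).2, nz k.2⟩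
  have e3 : ∀ j ∈ J, ∀ τ ∈ Q Γ (T j) ∅, ∃ σ ∈ Q Γ (T j) τ, σ.card = 3 ∧ ω j σ ≠ 0 := fun j hj τ h =>
    ((R j hj).top τ h).imp fun σ k => ⟨k.1, ((R j hj).ω_sup σ (nz k.2)).2, nz k.2⟩
  have up : ∀ j ∈ J, ∀ τ ∈ Q Γ (T j) ∅, τ ∈ Q Γ C ∅ := fun j hj τ h =>
    ⟨h.1, h.2.1, h.2.2.trans (sub j hj)⟩
  refine ⟨sub, dis, le4, le3, fun τ h => (e4 τ h).imp fun _ k => ⟨k.1, k.2.1⟩,
    fun j hj τ h => (e3 j hj τ h).imp fun _ k => ⟨k.1, k.2.1⟩, fun ρ h hc hw => ?_,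
    fun j hj ρ h hc => ?_, fun j hj ρ h hc => ?_, fun τ h hc c c' => ?_, fun j hj τ h hc c c' => ?_⟩
  · obtain ⟨σ, h1, h2, h3⟩ := e4 ρ h
    obtain ⟨c, h4, rfl⟩ := eq_ins h1 (by omega)
    exact ex_two h (fun t ht => by have := le4 t ht; omega)
      (W.link_in ρ h (Finset.card_pos.1 (by omega)) hw) (W.st_in ρ h hw) h4 h3
  · obtain ⟨σ, h1, h2, -⟩ := e4 ρ (up j hj ρ h)
    obtain ⟨c, h4, rfl⟩ := eq_ins h1 (by omega)
    exact ⟨c, fun s => ⟨ex_one (up j hj ρ h) (fun t ht => by have := le4 t ht; omega)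
      (W.link_bd j hj ρ h (Finset.card_pos.1 (by omega))) h4, fun e => e ▸ h4⟩⟩
  · obtain ⟨σ, h1, h2, h3⟩ := e3 j hj ρ h
    obtain ⟨c, h4, rfl⟩ := eq_ins h1 (by omega)
    exact ex_two h (fun t ht => by have := le3 j hj t ht; omega)
      ((R j hj).link ρ h (Finset.card_pos.1 (by omega))) ((R j hj).ω_cyc ρ h) h4 h3
  · refine ex_conn h hcol fun b hb hb' hd => ?_
    rcases τ.eq_empty_or_nonempty with rfl | hne
    · exact W.glob b hb hd fun j hj =>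
        ⟨pe_card (fun t k => ((R j hj).m_sup t k).2) hb' (by simp),
          pe_card (fun t k => ((R j hj).ω_sup t k).2) hb' (by simp)⟩
    by_cases hw : ∃ j ∈ J, τ ⊆ T j
    · obtain ⟨j, hj, hw⟩ := hw
      exact W.link_bd j hj τ ⟨h.1, h.2.1, hw⟩ hne b hb hd rfl
    · push Not at hw
      exact W.link_in τ h hne hw b hb hd (pe_card (fun t k => (W.o_sup t k).2) hb' (by omega))
  · refine ex_conn h hcol fun b hb hb' hd => ?_
    rcases τ.eq_empty_or_nonempty with rfl | hne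
    · exact (R j hj).glob b hb hd (pe_card (fun t k => ((R j hj).m_sup t k).2) hb' (by simp))
        (pe_card (fun t k => ((R j hj).l_sup t k).2) hb' (by simp))
        (pe_card (fun t k => ((R j hj).ω_sup t k).2) hb' (by simp))
    · exact (R j hj).link τ h hne b hb hd
        (pe_card (fun t k => ((R j hj).ω_sup t k).2) hb' (by omega))

end Crest.Agent.N233.Lp

end
end

-- ▼ part N233/Lp/Ch

/-!
# Row 233 (helper95): a chamber with cones on its walls is a closed pseudomanifold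
-/

set_option autoImplicit false
open Relation

noncomputable section

namespace Crest.Agent.N233.Lp

open N255.Ch N233.Hyp N255.Ra

variable {S N Ed : Type} [DecidableEq S] [DecidableEq Ed] {Γ : SimpleGraph S} {src tgt : Ed → N}
  {T : S → Set N}

/-- a chamber with walls `J`, coned off -/
theorem psm_cone {J : Set Ed} {C : Finset S} {Tw : Ed → Finset S} (h : Chm Γ J C Tw)
    (hT : ∀ e ∈ J, ∀ s, Wl src tgt T e s ↔ s ∈ Tw e) {L : Set (S ⊕ Ed)}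
    (hl : ∀ s, .inl s ∈ L ↔ s ∈ C) (hr : ∀ e, .inr e ∈ L ↔ e ∈ J) : Psm (cone Γ src tgt T) L := by
  let ι : S ↪ S ⊕ Ed := Function.Embedding.inl
  have nm : ∀ (e : Ed) (τ : Finset S), Sum.inr e ∉ τ.map ι := fun e τ => by simp [ι]
  have cd : ∀ (e : Ed) (τ : Finset S), (insert (.inr e) (τ.map ι)).card = τ.card + 1 := fun e τ => by
    rw [Finset.card_insert_of_notMem (nm e τ), Finset.card_map]
  have cs : ∀ τ : Finset (S ⊕ Ed), (cone Γ src tgt T).IsClique (τ : Set (S ⊕ Ed)) → ↑τ ⊆ L →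
      (∃ σ ∈ Q Γ C ∅, τ = σ.map ι) ∨
        ∃ e ∈ J, ∃ σ ∈ Q Γ (Tw e) ∅, τ = insert (.inr e) (σ.map ι) := by
    intro τ hτ hL
    have c1 : Γ.IsClique (τ.toLeft : Set S) := fun s hs t ht n =>
      hτ (Finset.mem_toLeft.1 hs) (Finset.mem_toLeft.1 ht) fun e => n (Sum.inl_injective e)
    by_cases k : ∃ e, Sum.inr e ∈ τ
    · obtain ⟨e, he⟩ := k
      have hJ := (hr e).1 (hL he)
      refine .inr ⟨e, hJ, τ.toLeft, ⟨c1, Finset.empty_subset _, fun s hs => (hT e hJ s).1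
        (hτ (Finset.mem_toLeft.1 hs) he (by simp))⟩, Finset.ext ?_⟩
      rintro (s | e')
      · simp [ι]
      · simp only [Finset.mem_insert, nm, or_false]
        exact ⟨fun k => by_contra fun n => hτ k he n, fun k => k ▸ he⟩
    · refine .inl ⟨τ.toLeft, ⟨c1, Finset.empty_subset _, fun s hs =>
        (hl s).1 (hL (Finset.mem_toLeft.1 hs))⟩, Finset.ext ?_⟩
      rintro (s | e')
      · simp [ι]
      · simp only [nm, iff_false]
        exact fun m => k ⟨_, m⟩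
  have k1 : ∀ (σ : Finset S) s, Lk (cone Γ src tgt T) L (σ.map ι) (.inl s) ↔ Lk Γ C σ s := fun σ s =>
    and_congr (hl s) (by simp only [Finset.forall_mem_map]; rfl)
  have k2 : ∀ (σ : Finset S) e, Lk (cone Γ src tgt T) L (σ.map ι) (.inr e) ↔ e ∈ J ∧ σ ⊆ Tw e :=
    fun σ e => by
      refine (and_congr_left' (hr e)).trans (and_congr_right fun he => ?_)
      simp only [Finset.forall_mem_map]
      exact forall₂_congr fun s _ => hT e he s
  have k3 : ∀ e ∈ J, ∀ (σ : Finset S) s,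
      Lk (cone Γ src tgt T) L (insert (.inr e) (σ.map ι)) (.inl s) ↔ Lk Γ (Tw e) σ s := by
    intro e he σ s
    simp only [Lk, Finset.forall_mem_insert, Finset.forall_mem_map, hl]
    exact ⟨fun k => ⟨(hT e he s).1 k.2.1, k.2.2⟩,
      fun k => ⟨h.sub e he k.1, (hT e he s).2 k.1, k.2⟩⟩
  have k4 : ∀ e e' (σ : Finset S),
      ¬Lk (cone Γ src tgt T) L (insert (.inr e) (σ.map ι)) (.inr e') := fun e e' σ k =>
    k.2 _ (Finset.mem_insert_self _ _)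
  have c1 : ∀ σ : Finset S, Γ.IsClique (σ : Set S) →
      (cone Γ src tgt T).IsClique ((σ.map ι : Finset _) : Set (S ⊕ Ed)) := by
    intro σ hσ a ha b hb n
    obtain ⟨s, hs, rfl⟩ := Finset.mem_map.1 ha
    obtain ⟨t, ht, rfl⟩ := Finset.mem_map.1 hb
    exact hσ hs ht fun e => n (congrArg _ e)
  have s1 : ∀ σ : Finset S, σ ⊆ C → ((σ.map ι : Finset _) : Set (S ⊕ Ed)) ⊆ L := by
    intro σ hσ a ha
    obtain ⟨s, hs, rfl⟩ := Finset.mem_map.1 ha
    exact (hl s).2 (hσ hs)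
  refine ⟨fun τ hτ hL => ?_, fun τ hτ hL => ?_, fun ρ hρ hL => ?_, fun τ hτ hL hc => ?_,
    fun a ha => ?_⟩
  · rcases cs τ hτ hL with ⟨σ, hσ, rfl⟩ | ⟨e, he, σ, hσ, rfl⟩
    · rw [Finset.card_map]; exact h.le4 σ hσ
    · rw [cd]; exact Nat.succ_le_succ (h.le3 e he σ hσ)
  · rcases cs τ hτ hL with ⟨σ, hσ, rfl⟩ | ⟨e, he, σ, hσ, rfl⟩
    · obtain ⟨σ', h1, h2⟩ := h.ext4 σ hσ
      exact ⟨σ'.map ι, ⟨c1 _ h1.1, by rw [Finset.card_map, h2]⟩, Finset.map_subset_map.2 h1.2.1,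
        s1 _ h1.2.2⟩
    · obtain ⟨σ', h1, h2⟩ := h.ext3 e he σ hσ
      have := (k2 σ' e).2 ⟨he, h1.2.2⟩
      refine ⟨insert (.inr e) (σ'.map ι), ⟨this.clique (c1 _ h1.1), by rw [cd, h2]⟩,
        Finset.insert_subset_insert _ (Finset.map_subset_map.2 h1.2.1), ?_⟩
      rw [Finset.coe_insert]
      exact Set.insert_subset this.1 (s1 _ (h1.2.2.trans (h.sub e he)))
  · rcases cs ρ hρ.1 hL with ⟨σ, hσ, rfl⟩ | ⟨e, he, σ, hσ, rfl⟩
    · have hc : σ.card = 3 := by rw [← hρ.2, Finset.card_map]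
      by_cases hw : ∃ j ∈ J, σ ⊆ Tw j
      · obtain ⟨j, hj, hw⟩ := hw
        obtain ⟨a, ha⟩ := h.one4 j hj σ ⟨hσ.1, hσ.2.1, hw⟩ hc
        obtain ⟨v, hv⟩ : σ.Nonempty := Finset.card_pos.1 (by omega)
        refine ⟨.inl a, .inr j, by simp, ?_⟩
        rintro (s | e)
        · simp [k1, ha]
        · simp only [k2, reduceCtorEq, Sum.inr.injEq, false_or]
          exact ⟨fun k => h.dis e k.1 j hj v (k.2 hv) (hw hv), fun k => k ▸ ⟨hj, hw⟩⟩
      · push Not at hw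
        obtain ⟨a, a', n, ha⟩ := h.two4 σ hσ hc hw
        refine ⟨.inl a, .inl a', by simpa using n, ?_⟩
        rintro (s | e)
        · simp [k1, ha]
        · simp only [k2, reduceCtorEq, or_self, iff_false]
          exact fun k => hw e k.1 k.2
    · obtain ⟨a, a', n, ha⟩ := h.two3 e he σ hσ (by have := hρ.2; rw [cd] at this; omega)
      refine ⟨.inl a, .inl a', by simpa using n, ?_⟩
      rintro (s | e')
      · simp [k3 e he, ha]
      · simp [k4]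
  · rcases cs τ hτ hL with ⟨σ, hσ, rfl⟩ | ⟨e, he, σ, hσ, rfl⟩
    · rw [Finset.card_map] at hc
      have p : ∀ s s', Lk Γ C σ s → Lk Γ C σ s' → ReflTransGen (fun u v =>
          (cone Γ src tgt T).Adj u v ∧ Lk (cone Γ src tgt T) L (σ.map ι) v) (.inl s) (.inl s') :=
        fun s s' hs hs' => (h.lk4 σ hσ hc s s' hs hs').lift Sum.inl fun u v k => ⟨k.1, (k1 _ _).2 k.2⟩
      have q : ∀ e, Lk (cone Γ src tgt T) L (σ.map ι) (.inr e) →
          ∃ s, Lk Γ C σ s ∧ Wl src tgt T e s := fun e k => by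
        obtain ⟨he, k⟩ := (k2 _ _).1 k
        obtain ⟨σ', h1, h2⟩ := h.ext3 e he σ ⟨hσ.1, hσ.2.1, k⟩
        obtain ⟨s, h3, h4⟩ := exists_lk (L := C) h1.1 h1.2.1 (by omega)
          (Finset.coe_subset.2 (h1.2.2.trans (h.sub e he)))
        exact ⟨s, h4, (hT e he s).2 (h1.2.2 h3)⟩
      have r : ∀ s c', Lk Γ C σ s → Lk (cone Γ src tgt T) L (σ.map ι) c' → ReflTransGen (fun u v =>
          (cone Γ src tgt T).Adj u v ∧ Lk (cone Γ src tgt T) L (σ.map ι) v) (.inl s) c' := by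
        rintro s (s' | e) hs hc'
        · exact p s s' hs ((k1 _ _).1 hc')
        · obtain ⟨s', h1, h2⟩ := q e hc'
          exact (p s s' hs h1).tail ⟨h2, hc'⟩
      rintro (s | e) c' hc hc'
      · exact r s c' ((k1 _ _).1 hc) hc'
      · obtain ⟨s, h1, h2⟩ := q e hc
        have j : (cone Γ src tgt T).Adj (.inr e) (.inl s) := h2
        exact (r s c' h1 hc').head ⟨j, (k1 _ _).2 h1⟩
    · rw [cd] at hc
      rintro (s | e1) (s' | e2) hc hc'
      · exact (h.lk3 e he σ hσ (by omega) s s' ((k3 e he _ _).1 hc) ((k3 e he _ _).1 hc')).lift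
          Sum.inl fun u v k => ⟨k.1, (k3 e he _ _).2 k.2⟩
      · exact (k4 _ _ _ hc').elim
      · exact (k4 _ _ _ hc).elim
      · exact (k4 _ _ _ hc).elim
  · have f : {c : S ⊕ Ed | ∃ e, c = .inr e ∧ Lk (cone Γ src tgt T) L {a} c}.Subsingleton := by
      rintro _ ⟨e, rfl, k⟩ _ ⟨e', rfl, k'⟩
      rcases a with s | e0
      · have he := (hr e).1 k.1
        have he' := (hr e').1 k'.1
        rw [h.dis e he e' he' s ((hT e he s).1 (k.2 _ (Finset.mem_singleton_self _)))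
          ((hT e' he' s).1 (k'.2 _ (Finset.mem_singleton_self _)))]
      · exact (k.2 _ (Finset.mem_singleton_self _)).elim
    refine ((C.finite_toSet.image Sum.inl).union f.finite).subset ?_
    rintro (s | e) k
    · exact .inl ⟨s, (hl s).1 k.1, rfl⟩
    · exact .inr ⟨e, rfl, k⟩

omit [DecidableEq S] [DecidableEq Ed] in
theorem mst_inl (x : W Γ × N) (s : S) : (∃ z, mst Γ src tgt T x (.inl s) z) ↔ x.2 ∈ T s :=
  ⟨fun ⟨_, h⟩ => h.1, fun h => ⟨_, h, rfl⟩⟩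

omit [DecidableEq S] [DecidableEq Ed] in
theorem mst_inr (x : W Γ × N) (e : Ed) :
    (∃ z, mst Γ src tgt T x (.inr e) z) ↔ src e = x.2 ∨ tgt e = x.2 :=
  ⟨fun ⟨_, h⟩ => h.2.imp (fun k => k.1.symm) fun k => k.1.symm, fun h => h.elim
    (fun k => ⟨(x.1, tgt e), rfl, .inl ⟨k.symm, rfl⟩⟩) fun k => ⟨(x.1, src e), rfl, .inr ⟨k.symm, rfl⟩⟩⟩

/-- the links of the mirror cube complex -/
theorem psm_mst {C : N → Finset S} {Tw : Ed → Finset S}
    (h : ∀ t, Chm Γ {e | src e = t ∨ tgt e = t} (C t) Tw) (hC : ∀ t s, t ∈ T s ↔ s ∈ C t)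
    (hT : ∀ e s, Wl src tgt T e s ↔ s ∈ Tw e) (x : W Γ × N) :
    Psm (cone Γ src tgt T) {c | ∃ z, mst Γ src tgt T x c z} :=
  psm_cone (h x.2) (fun e _ => hT e) (fun s => (mst_inl x s).trans (hC _ _)) (mst_inr x)

omit [DecidableEq Ed] in
/-- renaming the walls -/
theorem Chm.reidx {ι ι' : Type} {J : Set ι} {J' : Set ι'} {C : Finset S} {Tw : ι → Finset S}
    {Tw' : ι' → Finset S} (h : Chm Γ J C Tw) (h1 : ∀ j ∈ J, ∃ i ∈ J', Tw' i = Tw j)
    (h2 : ∀ i ∈ J', ∃ j ∈ J, Tw' i = Tw j)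
    (h3 : ∀ j ∈ J', ∀ i ∈ J', ∀ s ∈ Tw' j, s ∈ Tw' i → j = i) : Chm Γ J' C Tw' where
  sub i hi := by obtain ⟨j, hj, e⟩ := h2 i hi; rw [e]; exact h.sub j hj
  dis := h3
  le4 := h.le4
  le3 i hi := by obtain ⟨j, hj, e⟩ := h2 i hi; rw [e]; exact h.le3 j hj
  ext4 := h.ext4
  ext3 i hi := by obtain ⟨j, hj, e⟩ := h2 i hi; rw [e]; exact h.ext3 j hj
  two4 ρ hρ hc hw := h.two4 ρ hρ hc fun j hj => by
    obtain ⟨i, hi, e⟩ := h1 j hj; rw [← e]; exact hw i hi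
  one4 i hi := by obtain ⟨j, hj, e⟩ := h2 i hi; rw [e]; exact h.one4 j hj
  two3 i hi := by obtain ⟨j, hj, e⟩ := h2 i hi; rw [e]; exact h.two3 j hj
  lk4 := h.lk4
  lk3 i hi := by obtain ⟨j, hj, e⟩ := h2 i hi; rw [e]; exact h.lk3 j hj

end Crest.Agent.N233.Lp

end
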