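import Crest.Agent.N233.Lp.Ch
import Crest.Agent.N255.Ch.Main
import Crest.Agent.N255.Fa.Hyp
import Crest.Agent.N233.Hi.Fin_Mg
import Crest.Agent.N233.Lo.Mir
import Crest.Agent.N233.Hi.Hy
import Crest.Agent.N255.Pt.Mir

-- ▼ part N233/Lp/Gl
section

/-!
# Row 233 (helper95): a mirror model with local structure is a pseudomanifold; the unsubdivided tree
-/

set_option autoImplicit false
open Relation

noncomputable section

namespace Crest.Agent.N233.Lp

open N255 N255.Ch N233.Hyp N255.Ra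

variable {S K F Nd Ed : Type} [DecidableEq S] [LinearOrder K] [Group F] [MulAction F Nd]
  [MulAction F Ed] [DecidableEq Ed] {M : Ce.Mir S K F Nd Ed} (L : Ch.Loc M)
include L

theorem wall_eq {e e' : Ed} (h : M.src e = M.src e') {s : S} (hs : s ∈ M.sp (M.tgt e))
    (hs' : s ∈ M.sp (M.tgt e')) : e = e' :=
  ((L.tgt_eq e e' (L.w1 e e' s hs hs')).resolve_right fun k => L.src_op e (k ▸ h.symm)).symm

theorem chm {n : Nd} (hn : ¬M.ty n) :
    Chm M.Γ {e | M.src e = n} (M.sp n) fun e => M.sp (M.tgt e) :=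
  chm_of M.col_ne (L.wal n hn) (fun e _ => L.tor e) (fun e he => he ▸ L.wall e)
    (fun _ he _ he' _ hs hs' => wall_eq L (he.trans he'.symm) hs hs')
    (fun τ h => M.dimN n τ h.1 h.2.2)
    fun e _ τ h => M.dimE e τ h.1 (h.2.2.trans (L.wall e)) h.2.2

theorem nodes {n n' : Nd} (hn : ¬M.ty n) (hn' : ¬M.ty n') {τ : Finset S} (hτ : τ.Nonempty)
    (h : τ ⊆ M.sp n) (h' : τ ⊆ M.sp n') :
    n' = n ∨ ∃ e, M.src e = n ∧ M.src (L.op e) = n' ∧ M.sp n ∩ M.sp n' ⊆ M.sp (M.tgt e) := by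
  obtain ⟨s, hs⟩ := hτ
  exact (em _).imp_right fun k => L.w2 n n' s hn hn' (Ne.symm k) (h hs) (h' hs)

theorem wall_op (e : Ed) : M.sp (M.tgt e) ⊆ M.sp (M.src (L.op e)) := L.tgt_op e ▸ L.wall (L.op e)

theorem wall_ne (e : Ed) : (M.sp (M.tgt e)).Nonempty := by
  obtain ⟨σ, h1, h2⟩ := (chm L (M.ty_src e)).ext3 e rfl ∅ ⟨by simp, by simp, by simp⟩
  exact (Finset.card_pos.1 (by omega : 0 < σ.card)).mono h1.2.2

theorem lk_vtx {τ : Finset S} (hτ : M.Γ.IsClique (τ : Set S)) {s : S} (h : Lk M.Γ Set.univ τ s) :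
    ∃ n, ¬M.ty n ∧ τ ⊆ M.sp n ∧ Lk M.Γ (M.sp n) τ s := by
  obtain ⟨n, h1, h2⟩ := L.exists_vtx (h.clique hτ)
  exact ⟨n, h1, (Finset.subset_insert _ _).trans h2, h2 (Finset.mem_insert_self _ _), h.2⟩

theorem sp_conn (n : Nd) {s s' : S} (h : s ∈ M.sp n) (h' : s' ∈ M.sp n) :
    ReflTransGen M.Γ.Adj s s' := by
  obtain ⟨n', h1, h2⟩ : ∃ n', ¬M.ty n' ∧ M.sp n ⊆ M.sp n' := by
    by_cases k : M.ty n
    · obtain ⟨e, rfl⟩ := L.mid n k
      exact ⟨_, M.ty_src e, L.wall e⟩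
    · exact ⟨n, k, subset_rfl⟩
  exact ((chm L h1).lk4 ∅ ⟨by simp, by simp, by simp⟩ (by simp) s s' ⟨h2 h, by simp⟩
    ⟨h2 h', by simp⟩).lift id fun _ _ k => k.1

theorem gam_conn (s s' : S) : ReflTransGen M.Γ.Adj s s' := by
  obtain ⟨n, -, h⟩ := L.exists_vtx (t0 := {s}) (by simp)
  obtain ⟨n', -, h'⟩ := L.exists_vtx (t0 := {s'}) (by simp)
  rw [Finset.singleton_subset_iff] at h h'
  have p := (Fa.hmir M).conn n n'
  induction p generalizing s' with
  | refl => exact sp_conn L n h h'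
  | @tail u v _ k ih =>
    obtain ⟨e, k⟩ := k
    obtain ⟨w, hw⟩ := wall_ne L e
    have : w ∈ M.sp u ∧ w ∈ M.sp v := by
      rcases k with ⟨rfl, rfl⟩ | ⟨rfl, rfl⟩
      exacts [⟨L.wall e hw, hw⟩, ⟨hw, L.wall e hw⟩]
    exact (ih w this.1).trans (sp_conn L v this.2 h')

/-- the nerve is a closed normal pseudomanifold -/
theorem psm_univ : Psm M.Γ Set.univ := by
  refine ⟨fun τ h _ => Fa.card_le_four h, fun τ h _ => ?_, fun ρ h _ => ?_,
    fun τ h _ hc c c' k k' => ?_, fun a _ => ?_⟩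
  · obtain ⟨n, h1, h2⟩ := L.exists_vtx h
    obtain ⟨σ, h3, h4⟩ := (chm L h1).ext4 τ ⟨h, by simp, h2⟩
    exact ⟨σ, ⟨h3.1, h4⟩, h3.2.1, by simp⟩
  · obtain ⟨n, h1, h2⟩ := L.exists_vtx h.1
    have ne : ρ.Nonempty := Finset.card_pos.1 (by rw [h.2]; omega)
    by_cases hw : ∃ e, M.src e = n ∧ ρ ⊆ M.sp (M.tgt e)
    · obtain ⟨e, rfl, hw⟩ := hw
      obtain ⟨a, ha⟩ := (chm L h1).one4 e rfl ρ ⟨h.1, by simp, hw⟩ h.2
      obtain ⟨a', ha'⟩ := (chm L (M.ty_src (L.op e))).one4 (L.op e) rfl ρ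
        ⟨h.1, by simp, by simpa only [L.tgt_op] using hw⟩ h.2
      have h3 := hw.trans (wall_op L e)
      refine ⟨a, a', ?_, fun s => ⟨fun k => ?_, ?_⟩⟩
      · rintro rfl
        have k := (ha a).2 rfl
        obtain k1 | ⟨e', -, -, k1⟩ := nodes L h1 (M.ty_src (L.op e)) ne h2 h3
        · exact L.src_op e k1
        · have s1 : insert a ρ ⊆ M.sp (M.tgt e') := (Finset.subset_inter
            (Finset.insert_subset k.1 h2) (Finset.insert_subset ((ha' a).2 rfl).1 h3)).trans k1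
          have := M.dimE e' _ (k.clique h.1) (s1.trans (L.wall e')) s1
          rw [Finset.card_insert_of_notMem k.nmem, h.2] at this
          omega
      · obtain ⟨n', k1, k2, k3⟩ := lk_vtx L h.1 k
        obtain rfl | ⟨e', k4, rfl, k5⟩ := nodes L h1 k1 ne h2 k2
        · exact .inl ((ha s).1 k3)
        · obtain ⟨v, hv⟩ := ne
          obtain rfl := wall_eq L k4 (k5 (Finset.mem_inter.2 ⟨h2 hv, k2 hv⟩)) (hw hv)
          exact .inr ((ha' s).1 k3)
      · rintro (rfl | rfl)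
        exacts [((ha _).2 rfl).mono (Set.subset_univ _), ((ha' _).2 rfl).mono (Set.subset_univ _)]
    · obtain ⟨a, a', n1, ha⟩ := (chm L h1).two4 ρ ⟨h.1, by simp, h2⟩ h.2 fun e he k => hw ⟨e, he, k⟩
      refine ⟨a, a', n1, fun s => ⟨fun k => ?_, fun k => ((ha s).2 k).mono (Set.subset_univ _)⟩⟩
      obtain ⟨n', k1, k2, k3⟩ := lk_vtx L h.1 k
      obtain rfl | ⟨e', k4, -, k5⟩ := nodes L h1 k1 ne h2 k2
      · exact (ha s).1 k3
      · exact (hw ⟨e', k4, (Finset.subset_inter h2 k2).trans k5⟩).elim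
  · rcases τ.eq_empty_or_nonempty with rfl | ne
    · exact (gam_conn L c c').lift id fun u v k => ⟨k, trivial, by simp⟩
    obtain ⟨n, h1, h2, h3⟩ := lk_vtx L h k
    obtain ⟨n', k1, k2, k3⟩ := lk_vtx L h k'
    have p : ∀ {n}, ¬M.ty n → τ ⊆ M.sp n → ∀ s s', Lk M.Γ (M.sp n) τ s → Lk M.Γ (M.sp n) τ s' →
        ReflTransGen (fun u v => M.Γ.Adj u v ∧ Lk M.Γ Set.univ τ v) s s' := fun hn h2 s s' a a' =>
      ((chm L hn).lk4 τ ⟨h, by simp, h2⟩ hc s s' a a').lift id fun u v k =>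
        ⟨k.1, k.2.mono (Set.subset_univ _)⟩
    obtain rfl | ⟨e, rfl, rfl, k5⟩ := nodes L h1 k1 ne h2 k2
    · exact p h1 h2 _ _ h3 k3
    · obtain ⟨σ, a1, a2⟩ := (chm L h1).ext3 e rfl τ ⟨h, by simp, (Finset.subset_inter h2 k2).trans k5⟩
      obtain ⟨s, -, a3⟩ := exists_lk (L := M.sp (M.tgt e)) a1.1 a1.2.1 (by omega)
        (Finset.coe_subset.2 a1.2.2)
      exact (p h1 h2 _ _ h3 (a3.mono (Finset.coe_subset.2 (L.wall e)))).trans
        (p k1 k2 _ _ (a3.mono (Finset.coe_subset.2 (wall_op L e))) k3)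
  · obtain ⟨n, h1, h2⟩ := L.exists_vtx (t0 := {a}) (by simp)
    refine ((M.sp n).finite_toSet.union ((star M n).finite_toSet.biUnion fun e _ =>
      (M.sp (M.src (L.op e))).finite_toSet)).subset fun c k => ?_
    obtain ⟨n', k1, k2, k3⟩ := lk_vtx L (by simp) k
    obtain rfl | ⟨e, k4, rfl, -⟩ := nodes L h1 k1 (by simp) h2 k2
    · exact .inl k3.1
    · exact .inr (Set.mem_biUnion (mem_star.2 k4) k3.1)

/-- the links of the mirror cube complex over any model of the unsubdivided tree -/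
theorem psm_of_loc {N E : Type} [DecidableEq E] {src tgt : E → N} {T : S → Set N} (ν : N → Nd)
    (μ : E → Nd) (hν : ∀ t, ¬M.ty (ν t)) (hC : ∀ t s, t ∈ T s ↔ s ∈ M.sp (ν t))
    (hT : ∀ e s, Wl src tgt T e s ↔ s ∈ M.sp (μ e))
    (h1 : ∀ t e', M.src e' = ν t → ∃ e, (src e = t ∨ tgt e = t) ∧ μ e = M.tgt e')
    (h2 : ∀ t e, src e = t ∨ tgt e = t → ∃ e', M.src e' = ν t ∧ μ e = M.tgt e')
    (h3 : ∀ e e' s, Wl src tgt T e s → Wl src tgt T e' s → e = e') (x : W M.Γ × N) :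
    Psm (cone M.Γ src tgt T) {c | ∃ z, mst M.Γ src tgt T x c z} :=
  psm_mst (C := fun t => M.sp (ν t)) (Tw := fun e => M.sp (μ e)) (fun t => (chm L (hν t)).reidx
    (fun e' h => (h1 t e' h).imp fun _ k => ⟨k.1, congrArg M.sp k.2⟩)
    (fun e h => (h2 t e h).imp fun _ k => ⟨k.1, congrArg M.sp k.2⟩)
    fun e _ e' _ s a b => h3 e e' s ((hT _ _).2 a) ((hT _ _).2 b)) hC hT x

/-! ### the canonical unsubdivided tree -/

omit L in
variable (M) in
/-- chambers -/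
abbrev VN : Type := {n : Nd // ¬M.ty n}

omit L in
variable (M) in
/-- walls -/
abbrev WN : Type := {n : Nd // M.ty n}


/-- a half edge into a wall -/
def hf (μ : WN M) : Ed := (L.mid μ.1 μ.2).choose




omit L in
instance : MulAction F (VN M) where
  smul f n := ⟨f • n.1, fun h => n.2 ((M.ty_smul f _).1 h)⟩
  one_smul n := Subtype.ext (one_smul F n.1)
  mul_smul f g n := Subtype.ext (mul_smul f g n.1)
























end Crest.Agent.N233.Lp

end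
end

-- ▼ part N233/Lp/Ins

/-!
# Row 233 (helper95): the pseudomanifold facts for the subdivided model
-/

set_option autoImplicit false

noncomputable section

namespace Crest.Agent.N233.Lp

open N255 N255.Pt N255.Ra N233.Hyp N233.PS N233.Lo N233.Hi

attribute [local irreducible] Pb.ixc

variable {ι I Tor : Type} [Fintype ι] [Fintype I] [Fintype Tor] [DecidableEq ι] [DecidableEq I]
  [DecidableEq Tor] (D : Dt ι I Tor (Fin 4)) (L : Ch.Loc (mps D.mir))
include L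

theorem psmD_univ : Psm (ps D.Gt.IsClique) Set.univ := psm_univ L

theorem hyD : Rr.Hy (ps D.Gt.IsClique) := (psmD_univ D L).hy

theorem psmD (x : W (ps D.Gt.IsClique) × FreeGroup ι) :
    Psm (cone (ps D.Gt.IsClique) (sr ι) (tg ι) (Ts Tc))
      {c | ∃ z, mst (ps D.Gt.IsClique) (sr ι) (tg ι) (Ts Tc) x c z} := by
  refine psm_of_loc L (N := FreeGroup ι) (E := FreeGroup ι × ι) (fun t => ⟨t, none⟩)
    (fun e => ⟨e.1, some e.2⟩) (fun _ h => h rfl) (fun t a => ?_) (fun e a => ?_) (fun t e' h => ?_)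
    (fun t e h => ?_) (fun e e' a h h' => ?_) x
  · rw [mps_sp, mem_st, Dt.mir_sp, coe_sp]; rfl
  · rw [mps_sp, mem_st, Dt.mir_sp, coe_sp]
    exact wl_Ts.trans (forall₂_congr fun s _ => wl_tc)
  · obtain rfl : e'.v = t := congrArg Pt.L.v h
    exact ⟨_, (end_x e'.v e'.k).imp (fun k => k.1.symm) fun k => k.1.symm, rfl⟩
  · rcases h with rfl | rfl
    · exact ⟨⟨e.1, e.2, true⟩, rfl, rfl⟩
    · exact ⟨⟨e.1 * Pt.x (e.2, true), Pt.op (e.2, true)⟩, rfl, (tgt_op ⟨e.1, e.2, true⟩).symm⟩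
  · obtain ⟨s, hs⟩ := car_nonempty a
    exact wl_disj e e' s (wl_Ts.1 h hs) (wl_Ts.1 h' hs)



end Crest.Agent.N233.Lp

end
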